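import Vale.Agent.P196.Full.Amenable.Stabiliser

/-!
# P196: amenability from almost invariant laws on lamps

The alternating group acts on the deformed cuts of the two directions; almost invariant laws on
lamps give almost invariant laws on cuts, and the stabiliser of a pair of cuts is locally finite.
-/

open Filter Topology

namespace Vale.Agent.P196.Full.Tower

variable {X : Type} [TopologicalSpace X] [CompactSpace X] {n : ℕ} {S : Sys X} (T : Tower S)

/-- Almost invariant laws on the deformed cuts. -/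
theorem exists_cut_mean (ax : Bool) (hmean : T.LinearMean ax n) (K : Finset (S.altGroup n))
    {ε : ℝ} (hε : 0 < ε) :
    ∃ ν : T.Cut n ax →₀ ℝ, 0 ≤ ν ∧ norm1 ν = 1 ∧
      ∀ g ∈ K, norm1 (ν.mapDomain (fun Y => g • Y) - ν) < ε := by
  classical
  let N : Set (Pt X n) := T.upper ax
  let f : Equiv.Perm (Pt X n) → Set (Pt X n) := fun g => symmDiff (g '' N) N
  obtain ⟨ν, h0, h1, hsupp, hg, hf⟩ := hmean (K.image Subtype.val)
    (fun g hg => by
      obtain ⟨a, -, rfl⟩ := Finset.mem_image.1 hg
      exact Sys.isLocal_of_mem a.2)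
    (K.image fun g : S.altGroup n => f g.1)
    (fun A hA => by
      obtain ⟨a, -, rfl⟩ := Finset.mem_image.1 hA
      exact T.isLamp_cocycle ax a.2)
    (ε / 2) (half_pos hε)
  let dflt : T.Cut n ax := ⟨N, by simpa [N] using T.isLamp_empty ax⟩
  let φ : Set (Pt X n) → T.Cut n ax := fun A => if h : T.IsLamp ax A then
    ⟨symmDiff A N, by simpa [N, symmDiff_assoc] using h⟩ else dflt
  have hφ : ∀ A, T.IsLamp ax A → (φ A).1 = symmDiff A N := fun A h => by simp [φ, h]
  refine ⟨ν.mapDomain φ, Norm1.mapDomain_nonneg _ h0,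
    (Norm1.mapDomain_of_nonneg _ h0).trans h1, fun g hgK => ?_⟩
  have e : (ν.mapDomain φ).mapDomain (fun Y => g • Y) =
      ((ν.mapDomain fun A => (g : Equiv.Perm (Pt X n)) '' A).mapDomain
        fun A => symmDiff A (f g.1)).mapDomain φ := by
    rw [← Finsupp.mapDomain_comp, ← Finsupp.mapDomain_comp, ← Finsupp.mapDomain_comp]
    refine Finsupp.mapDomain_congr fun A hA => Subtype.ext ?_
    have hA' := hsupp A hA
    show ((g • φ A : T.Cut n ax)).1 = (φ (symmDiff ((g : Equiv.Perm (Pt X n)) '' A) (f g.1))).1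
    rw [T.coe_smul_cut, hφ A hA', hφ _
        (IsLamp.symmDiff T (IsLamp.image T hA' g.2) (T.isLamp_cocycle ax g.2)),
      Set.image_symmDiff g.1.injective]
    simp [N, symmDiff_assoc]
  rw [e, ← Finsupp.mapDomain_sub]
  refine (Norm1.mapDomain_le _ _).trans_lt ?_
  set sd : Set (Pt X n) → Set (Pt X n) := fun A => symmDiff A (f g.1) with hsd
  set gν : Set (Pt X n) →₀ ℝ := ν.mapDomain fun A => (g : Equiv.Perm (Pt X n)) '' A with hgν
  have hsplit := Norm1.add_le (gν.mapDomain sd - ν.mapDomain sd) (ν.mapDomain sd - ν)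
  rw [sub_add_sub_cancel, ← Finsupp.mapDomain_sub] at hsplit
  have ha : norm1 ((gν - ν).mapDomain sd) < ε / 2 :=
    (Norm1.mapDomain_le _ _).trans_lt (hg _ (Finset.mem_image_of_mem _ hgK))
  have hb : norm1 (ν.mapDomain sd - ν) < ε / 2 :=
    hf _ (Finset.mem_image_of_mem (fun g : S.altGroup n => f g.1) hgK)
  linarith

/-- A group acting faithfully by permutations of the alternating group fixing a cut in each
direction is amenable. -/
theorem isAmenable_of_fix [T2Space X] {Γ : Type*} [Group Γ] (incl : Γ →* Equiv.Perm (Pt X n))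
    (hinj : Function.Injective incl) (hmem : ∀ g, incl g ∈ S.altGroup n) (Y₀ : T.Cut n false)
    (Y₁ : T.Cut n true) (h₀ : ∀ g, incl g '' Y₀.1 = Y₀.1) (h₁ : ∀ g, incl g '' Y₁.1 = Y₁.1) :
    IsAmenable Γ := by
  classical
  refine isAmenable_of_local fun (K : Finset Γ) =>
    ⟨Subgroup.closure (K : Set Γ), fun _ hx => Subgroup.subset_closure hx, ?_⟩
  have hfin := T.finite_closure_of_fix Y₀ Y₁ (K.image incl)
    (fun g hg => by
      obtain ⟨a, -, rfl⟩ := Finset.mem_image.1 hg
      exact hmem a)
    (fun g hg => by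
      obtain ⟨a, -, rfl⟩ := Finset.mem_image.1 hg
      exact h₀ a)
    (fun g hg => by
      obtain ⟨a, -, rfl⟩ := Finset.mem_image.1 hg
      exact h₁ a)
  have hfinK : Finite (Subgroup.closure (K : Set Γ)) := by
    refine Set.finite_coe_iff.2 ((hfin.preimage hinj.injOn).subset fun x hx => ?_)
    have := Subgroup.mem_map_of_mem incl hx
    rw [MonoidHom.map_closure] at this
    simpa using this
  exact isAmenable_of_finite

/-- Amenability of the alternating group from almost invariant laws on lamps. -/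
theorem isAmenable_of_linearMean [T2Space X] (h : ∀ ax, T.LinearMean ax n) :
    IsAmenable (S.altGroup n) := by
  classical
  refine isAmenable_of_action (Ω := T.Cut n false)
    (fun K ε hε => T.exists_cut_mean false (h false) K hε) fun Y₀ => ?_
  refine isAmenable_of_action (Ω := T.Cut n true) (fun K ε hε => ?_) fun Y₁ => ?_
  · obtain ⟨ν, h0, h1, hK⟩ := T.exists_cut_mean true (h true) (K.image Subtype.val) hε
    exact ⟨ν, h0, h1, fun g hg => hK g.1 (Finset.mem_image_of_mem _ hg)⟩
  refine T.isAmenable_of_fix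
    (((S.altGroup n).subtype.comp (MulAction.stabilizer (S.altGroup n) Y₀).subtype).comp
      (MulAction.stabilizer (MulAction.stabilizer (S.altGroup n) Y₀) Y₁).subtype)
    (((S.altGroup n).subtype_injective.comp
      (MulAction.stabilizer (S.altGroup n) Y₀).subtype_injective).comp
      (Subgroup.subtype_injective _))
    (fun g => g.1.1.2) Y₀ Y₁ (fun g => ?_) (fun g => ?_)
  · have hm : (g.1.1 : S.altGroup n) • Y₀ = Y₀ := g.1.2
    exact congrArg Subtype.val hm
  · have hm : (g.1.1 : S.altGroup n) • Y₁ = Y₁ := g.2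
    exact congrArg Subtype.val hm

end Vale.Agent.P196.Full.Tower
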