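import Vale.Agent.P196.Full.Amenable.Action
import Vale.Agent.P196.Full.Amenable.Law.Main

/-!
# P196: amenability of the alternating group of a sparse tower
-/

namespace Vale.Agent.P196.Full

/-- Sparse towers give amenable alternating groups. -/
theorem amenableGoal : AmenableGoal :=
  fun _ _ _ _ _ _ T _ h => T.isAmenable_of_linearMean fun ax => Law.linearMean_of_sparse T ax h

end Vale.Agent.P196.Full
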