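import Vale.Agent.P196.Full.Goals

/-!
# P196: lamps over a fault line

The finitely supported lamps on the amplified points over a fault line and the statement
`LinearMean` from which the amenability of the alternating group is deduced in
`Amenable/Action.lean`.
-/

namespace Vale.Agent.P196.Full

variable {X : Type} [TopologicalSpace X] {n : ℕ}

/-- A permutation moving every amplified point by a locally constant translation and colour. -/
def Sys.IsLocal (S : Sys X) (g : Equiv.Perm (Pt X n)) : Prop :=
  ∃ d : Pt X n → Lat, IsLocallyConstant d ∧ IsLocallyConstant (fun z => (g z).2) ∧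
    ∀ z, (g z).1 = S.sh (d z) z.1

namespace Tower

variable {S : Sys X} (T : Tower S)

/-- The amplified points at height at most `K` over a fault line. -/
def band (ax : Bool) (K : ℕ) : Set (Pt X n) :=
  {z | ∃ k : ℤ, k.natAbs ≤ K ∧ S.sh (axisVec ax 0 (-k)) z.1 ∈ T.fault ax}

/-- A lamp configuration: finitely many heights, clopen at each height. -/
def IsLamp (ax : Bool) (A : Set (Pt X n)) : Prop :=
  ∃ (K : ℕ) (B : Set (Pt X n)), IsClopen B ∧ A = B ∩ T.band ax K

/-- Probability laws on lamps, almost invariant under finitely many local permutations and under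
adding finitely many lamps. -/
def LinearMean (ax : Bool) (n : ℕ) : Prop :=
  ∀ gs : Finset (Equiv.Perm (Pt X n)), (∀ g ∈ gs, S.IsLocal g) →
    ∀ fs : Finset (Set (Pt X n)), (∀ f ∈ fs, T.IsLamp ax f) → ∀ ε : ℝ, 0 < ε →
      ∃ ν : Set (Pt X n) →₀ ℝ, 0 ≤ ν ∧ norm1 ν = 1 ∧ (∀ A ∈ ν.support, T.IsLamp ax A) ∧
        (∀ g ∈ gs, norm1 (ν.mapDomain (fun A => g '' A) - ν) < ε) ∧
        ∀ f ∈ fs, norm1 (ν.mapDomain (fun A => symmDiff A f) - ν) < ε

end Tower

end Vale.Agent.P196.Full
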