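import Vale.Agent.P196.Full.Amenable.Local

/-!
# P196: the algebra of lamps and of deformed cuts

Lamps are closed under symmetric differences and under the alternating group, and the upper half
of a fault line moves by a lamp. The deformed cuts form a set acted on by the alternating group.
-/

open Filter Topology

namespace Vale.Agent.P196.Full

variable {X : Type} [TopologicalSpace X] {n : ℕ}

theorem natAbs_le_of_mem_finset (s : Finset ℤ) : ∃ R : ℕ, ∀ a ∈ s, a.natAbs ≤ R :=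
  ⟨s.sup Int.natAbs, fun _ ha => Finset.le_sup (f := Int.natAbs) ha⟩

namespace Tower

variable {S : Sys X} (T : Tower S)

/-- The upper half of the amplified points over a fault line. -/
def upper (ax : Bool) : Set (Pt X n) :=
  {z | ∃ k : ℤ, 0 ≤ k ∧ ∀ m, T.across ax m z.1 = (k : ZMod (T.W m))}

/-- The signed height over the nearest row of the grid of level `m`. -/
def near (ax : Bool) (m : ℕ) (z : Pt X n) : ℤ := (T.across ax m z.1).valMinAbs

theorem isLocallyConstant_near (ax : Bool) (m : ℕ) :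
    IsLocallyConstant (T.near (n := n) ax m) :=
  ((T.isLocallyConstant_across ax m).comp_continuous continuous_fst).comp ZMod.valMinAbs

theorem isClopen_near (ax : Bool) (m : ℕ) (s : Set ℤ) :
    IsClopen {z : Pt X n | T.near ax m z ∈ s} := by
  have h := T.isLocallyConstant_near (n := n) ax m
  exact ⟨⟨h sᶜ⟩, h s⟩

theorem valMinAbs_intCast {m : ℕ} {k : ℤ} (h : 2 * k.natAbs < T.W m) :
    (k : ZMod (T.W m)).valMinAbs = k := by
  have : NeZero (T.W m) := ⟨(T.W_pos m).ne'⟩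
  refine (ZMod.valMinAbs_spec _ _).2 ⟨rfl, ?_, ?_⟩ <;> omega

theorem near_eq {ax : Bool} {m : ℕ} {z : Pt X n} {k : ℤ}
    (hk : T.across ax m z.1 = (k : ZMod (T.W m))) (h : 2 * k.natAbs < T.W m) :
    T.near ax m z = k := by
  rw [near, hk, T.valMinAbs_intCast h]

theorem IsLamp.enlarge {ax : Bool} {A : Set (Pt X n)} (hA : T.IsLamp ax A) :
    ∃ K : ℕ, A ⊆ T.band ax K ∧ ∀ L, K ≤ L →
      ∃ B : Set (Pt X n), IsClopen B ∧ A = B ∩ T.band ax L := by
  obtain ⟨K, B, hB, rfl⟩ := hA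
  refine ⟨K, Set.inter_subset_right, fun L hL => ?_⟩
  obtain ⟨m, -, hm⟩ := T.exists_W_gt (2 * L) 0
  refine ⟨B ∩ {z | T.near ax m z ∈ {t : ℤ | t.natAbs ≤ K}}, hB.inter (T.isClopen_near ax m _), ?_⟩
  ext z
  simp only [Set.mem_inter_iff, Set.mem_ofPred_eq]
  constructor
  · rintro ⟨hzB, hz⟩
    obtain ⟨k, hk, hzk⟩ := (T.mem_band_iff ax K z).1 hz
    refine ⟨⟨hzB, ?_⟩, T.band_mono ax hL hz⟩
    rw [T.near_eq (hzk m) (by omega)]
    exact hk
  · rintro ⟨⟨hzB, hnear⟩, hz⟩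
    obtain ⟨k, hk, hzk⟩ := (T.mem_band_iff ax L z).1 hz
    rw [T.near_eq (hzk m) (by omega)] at hnear
    exact ⟨hzB, (T.mem_band_iff ax K z).2 ⟨k, hnear, hzk⟩⟩

theorem isLamp_empty (ax : Bool) : T.IsLamp ax (∅ : Set (Pt X n)) :=
  ⟨0, ∅, isClopen_empty, (Set.empty_inter _).symm⟩

theorem IsLamp.symmDiff {ax : Bool} {A A' : Set (Pt X n)} (hA : T.IsLamp ax A)
    (hA' : T.IsLamp ax A') : T.IsLamp ax (symmDiff A A') := by
  obtain ⟨K, -, hK⟩ := hA.enlarge
  obtain ⟨K', -, hK'⟩ := hA'.enlarge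
  obtain ⟨B, hB, e⟩ := hK (max K K') (le_max_left _ _)
  obtain ⟨B', hB', e'⟩ := hK' (max K K') (le_max_right _ _)
  refine ⟨max K K', _root_.symmDiff B B', ?_, ?_⟩
  · rw [Set.symmDiff_def]
    exact (hB.diff hB').union (hB'.diff hB)
  · rw [e, e']
    ext z
    simp only [Set.mem_symmDiff, Set.mem_inter_iff]
    tauto

/-- A local permutation changes heights boundedly. -/
theorem exists_height_bound [CompactSpace X] (ax : Bool) {g : Equiv.Perm (Pt X n)}
    (hg : S.IsLocal g) :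
    ∃ R : ℕ, ∀ z, ∃ δ : ℤ, δ.natAbs ≤ R ∧
      ∀ m, T.across ax m (g z).1 = T.across ax m z.1 + (δ : ZMod (T.W m)) := by
  obtain ⟨d, hd, -, hgd⟩ := hg
  obtain ⟨R, hR⟩ := natAbs_le_of_mem_finset ((hd.comp (vAcross ax)).range_finite).toFinset
  refine ⟨R, fun z => ⟨vAcross ax (d z), hR _ (by simp), fun m => ?_⟩⟩
  rw [hgd, T.across_sh]

theorem IsLamp.image [CompactSpace X] {ax : Bool} {A : Set (Pt X n)} (hA : T.IsLamp ax A)
    {g : Equiv.Perm (Pt X n)} (hg : g ∈ S.altGroup n) : T.IsLamp ax (g '' A) := by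
  obtain ⟨K, hAK, hK⟩ := hA.enlarge
  obtain ⟨R, hR⟩ := T.exists_height_bound ax (Sys.isLocal_of_mem hg)
  obtain ⟨B, hB, e⟩ := hK (K + 2 * R) (by omega)
  have hinv : Continuous g.symm := (Sys.isLocal_of_mem (inv_mem hg)).continuous
  refine ⟨K + R, g.symm ⁻¹' B, hB.preimage hinv, ?_⟩
  ext w
  simp only [Set.mem_inter_iff, Set.mem_preimage, Equiv.image_eq_preimage_symm]
  obtain ⟨δ, hδ, hδw⟩ := hR (g.symm w)
  simp only [Equiv.apply_symm_apply] at hδw
  constructor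
  · intro hw
    refine ⟨(e ▸ hw : g.symm w ∈ B ∩ T.band ax (K + 2 * R)).1, ?_⟩
    obtain ⟨k, hk, hkw⟩ := (T.mem_band_iff ax K _).1 (hAK hw)
    exact (T.mem_band_iff ax _ _).2 ⟨k + δ, by omega, fun m => by simp [hδw, hkw]⟩
  · rintro ⟨hw, hband⟩
    obtain ⟨k, hk, hkw⟩ := (T.mem_band_iff ax _ _).1 hband
    rw [e]
    refine ⟨hw, (T.mem_band_iff ax _ _).2 ⟨k - δ, by omega, fun m => ?_⟩⟩
    have := hδw m
    rw [hkw m] at this
    rw [Int.cast_sub, this]
    ring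

/-- The upper half moves by a lamp. -/
theorem isLamp_cocycle [CompactSpace X] (ax : Bool) {g : Equiv.Perm (Pt X n)}
    (hg : g ∈ S.altGroup n) :
    T.IsLamp ax (_root_.symmDiff (g '' T.upper ax) (T.upper ax)) := by
  obtain ⟨R, hR⟩ := T.exists_height_bound ax (Sys.isLocal_of_mem hg)
  obtain ⟨m, -, hm⟩ := T.exists_W_gt (4 * R + 4) 0
  have hinv : Continuous g.symm := (Sys.isLocal_of_mem (inv_mem hg)).continuous
  set H : Set (Pt X n) := {z | T.near ax m z ∈ Set.Ici (0 : ℤ)} with hH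
  have hHc : IsClopen H := T.isClopen_near ax m _
  refine ⟨R, _root_.symmDiff (g.symm ⁻¹' H) H, ?_, ?_⟩
  · rw [Set.symmDiff_def]
    exact ((hHc.preimage hinv).diff hHc).union (hHc.diff (hHc.preimage hinv))
  ext w
  simp only [Set.mem_inter_iff, Set.mem_symmDiff, Equiv.image_eq_preimage_symm, Set.mem_preimage]
  obtain ⟨δ, hδ, hδw⟩ := hR (g.symm w)
  simp only [Equiv.apply_symm_apply] at hδw
  by_cases hp : ∃ k : ℤ, ∀ j, T.across ax j w.1 = (k : ZMod (T.W j))
  · obtain ⟨k, hkw⟩ := hp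
    have hk' : ∀ j, T.across ax j (g.symm w).1 = ((k - δ : ℤ) : ZMod (T.W j)) := fun j => by
      have := hδw j
      rw [hkw j] at this
      rw [Int.cast_sub, this]
      ring
    have hb : w ∈ T.band ax R ↔ k.natAbs ≤ R := by
      rw [T.mem_band_iff]
      exact ⟨fun ⟨l, hl, hlw⟩ => T.height_unique hlw hkw ▸ hl, fun h => ⟨k, h, hkw⟩⟩
    have hu : ∀ (z : Pt X n) (l : ℤ), (∀ j, T.across ax j z.1 = (l : ZMod (T.W j))) →
        (z ∈ T.upper ax ↔ 0 ≤ l) := fun z l hl =>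
      ⟨fun ⟨l', h', hl'⟩ => T.height_unique hl' hl ▸ h', fun h => ⟨l, h, hl⟩⟩
    rw [hb, hu w k hkw, hu _ _ hk']
    by_cases hkR : k.natAbs ≤ R
    · have e1 : w ∈ H ↔ 0 ≤ k := by
        rw [hH, Set.mem_ofPred_eq, T.near_eq (hkw m) (by omega), Set.mem_Ici]
      have e2 : g.symm w ∈ H ↔ 0 ≤ k - δ := by
        rw [hH, Set.mem_ofPred_eq, T.near_eq (hk' m) (by omega), Set.mem_Ici]
      rw [e1, e2]
      simp [hkR]
    · simp only [hkR, and_false, iff_false]
      omega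
  · have h1 : w ∉ T.upper ax := fun ⟨k, _, hk⟩ => hp ⟨k, hk⟩
    have h2 : g.symm w ∉ T.upper ax := fun ⟨k, _, hk⟩ =>
      hp ⟨k + δ, fun j => by simp [hδw j, hk j]⟩
    have h3 : w ∉ T.band ax R := fun h => by
      obtain ⟨k, _, hk⟩ := (T.mem_band_iff ax R w).1 h
      exact hp ⟨k, hk⟩
    simp [h1, h2, h3]

/-- The deformed cuts. -/
def Cut (n : ℕ) (ax : Bool) : Type :=
  {Y : Set (Pt X n) // T.IsLamp ax (_root_.symmDiff Y (T.upper ax))}

theorem isLamp_image_cut [CompactSpace X] {ax : Bool} {g : Equiv.Perm (Pt X n)}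
    (hg : g ∈ S.altGroup n) {Y : Set (Pt X n)}
    (hY : T.IsLamp ax (_root_.symmDiff Y (T.upper ax))) :
    T.IsLamp ax (_root_.symmDiff (g '' Y) (T.upper ax)) := by
  have h := IsLamp.symmDiff T (IsLamp.image T hY hg) (T.isLamp_cocycle ax hg)
  rwa [Set.image_symmDiff g.injective, symmDiff_assoc, symmDiff_symmDiff_cancel_left] at h

instance [CompactSpace X] (ax : Bool) : MulAction (S.altGroup n) (T.Cut n ax) where
  smul g Y := ⟨(g : Equiv.Perm (Pt X n)) '' Y.1, T.isLamp_image_cut g.2 Y.2⟩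
  one_smul Y := Subtype.ext (Set.image_id' _)
  mul_smul g h Y := Subtype.ext <| by
    show ((g * h : S.altGroup n) : Equiv.Perm (Pt X n)) '' Y.1 = _
    rw [Subgroup.coe_mul, Equiv.Perm.coe_mul, Set.image_comp]
    rfl

theorem coe_smul_cut [CompactSpace X] (ax : Bool) (g : S.altGroup n) (Y : T.Cut n ax) :
    (g • Y).1 = (g : Equiv.Perm (Pt X n)) '' Y.1 := rfl

end Tower

end Vale.Agent.P196.Full
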