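import Vale.Agent.P196.Full.Amenable.Lamp

/-!
# P196: phases along and across an axis, local permutations

Elementary facts about the phases of a tower, the bands over a fault line, freeness of the action
and the fact that every element of the alternating group is local.
-/

open Filter Topology

namespace Vale.Agent.P196.Full

variable {X : Type} [TopologicalSpace X] {n : ℕ}

/-- The coordinate of a lattice vector across an axis. -/
def vAcross (ax : Bool) (v : Lat) : ℤ := if ax then v.1 else v.2

/-- The coordinate of a lattice vector along an axis. -/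
def vAlong (ax : Bool) (v : Lat) : ℤ := if ax then v.2 else v.1

@[simp] theorem vAcross_axisVec (ax : Bool) (a b : ℤ) : vAcross ax (axisVec ax a b) = b := by
  cases ax <;> rfl

@[simp] theorem vAlong_axisVec (ax : Bool) (a b : ℤ) : vAlong ax (axisVec ax a b) = a := by
  cases ax <;> rfl

theorem axisVec_eta (ax : Bool) (v : Lat) : axisVec ax (vAlong ax v) (vAcross ax v) = v := by
  cases ax <;> rfl

theorem vAcross_add (ax : Bool) (u v : Lat) : vAcross ax (u + v) = vAcross ax u + vAcross ax v := by
  cases ax <;> simp [vAcross]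

theorem vAlong_add (ax : Bool) (u v : Lat) : vAlong ax (u + v) = vAlong ax u + vAlong ax v := by
  cases ax <;> simp [vAlong]

theorem isLocallyConstant_ite {α β : Type*} [TopologicalSpace α] {P : Set α}
    [DecidablePred (· ∈ P)] (hP : IsClopen P) {f g : α → β} (hf : IsLocallyConstant f)
    (hg : IsLocallyConstant g) : IsLocallyConstant fun z => if z ∈ P then f z else g z := by
  rw [IsLocallyConstant.iff_eventually_eq] at *
  intro z
  by_cases hz : z ∈ P
  · filter_upwards [hP.isOpen.mem_nhds hz, hf z] with y hy hfy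
    simp [hy, hz, hfy]
  · filter_upwards [hP.compl.isOpen.mem_nhds hz, hg z] with y hy hgy
    rw [if_neg hy, if_neg hz, hgy]

namespace Tower

variable {S : Sys X} (T : Tower S)

theorem phase_isLocallyConstant (m : ℕ) : IsLocallyConstant (T.phase m) :=
  IsLocallyConstant.iff_isOpen_fiber.2 fun c => (T.isClopen_fiber m c).isOpen

theorem isLocallyConstant_across (ax : Bool) (m : ℕ) : IsLocallyConstant (T.across ax m) :=
  (T.phase_isLocallyConstant m).comp fun c => if ax then c.1 else c.2

theorem isLocallyConstant_along (ax : Bool) (m : ℕ) : IsLocallyConstant (T.along ax m) :=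
  (T.phase_isLocallyConstant m).comp fun c => if ax then c.2 else c.1

theorem across_sh (ax : Bool) (m : ℕ) (v : Lat) (x : X) :
    T.across ax m (S.sh v x) = T.across ax m x + (vAcross ax v : ZMod (T.W m)) := by
  cases ax <;> simp [across, vAcross, T.phase_sh]

theorem along_sh (ax : Bool) (m : ℕ) (v : Lat) (x : X) :
    T.along ax m (S.sh v x) = T.along ax m x + (vAlong ax v : ZMod (T.W m)) := by
  cases ax <;> simp [along, vAlong, T.phase_sh]

theorem W_dvd_W {m M : ℕ} (h : m ≤ M) : T.W m ∣ T.W M := by
  induction h with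
  | refl => exact dvd_rfl
  | step _ ih => exact ih.trans (T.W_dvd _)

theorem W_le_of_le {m M : ℕ} (h : m ≤ M) : T.W m ≤ T.W M :=
  Nat.le_of_dvd (T.W_pos M) (T.W_dvd_W h)

theorem exists_W_gt (C m₀ : ℕ) : ∃ m, m₀ ≤ m ∧ C < T.W m := by
  obtain ⟨m, hm⟩ := T.W_unbounded (C + 1)
  exact ⟨max m₀ m, le_max_left _ _,
    lt_of_lt_of_le (Nat.lt_of_succ_le hm) (T.W_le_of_le (le_max_right _ _))⟩

theorem across_succ (ax : Bool) (m : ℕ) (x : X) :
    ((T.across ax (m + 1) x).cast : ZMod (T.W m)) = T.across ax m x := by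
  have h := T.phase_cast m x
  cases ax
  · exact congrArg Prod.snd h
  · exact congrArg Prod.fst h

theorem along_succ (ax : Bool) (m : ℕ) (x : X) :
    ((T.along ax (m + 1) x).cast : ZMod (T.W m)) = T.along ax m x := by
  have h := T.phase_cast m x
  cases ax
  · exact congrArg Prod.fst h
  · exact congrArg Prod.snd h

theorem across_eq_of_le {ax : Bool} {m M : ℕ} (hmM : m ≤ M) {x : X} {t : ℤ}
    (h : T.across ax M x = (t : ZMod (T.W M))) : T.across ax m x = (t : ZMod (T.W m)) := by
  induction hmM with
  | refl => exact h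
  | step _ ih =>
    refine ih ?_
    rw [← across_succ, h, ZMod.cast_intCast (T.W_dvd _)]

theorem int_eq_of_forall {a b : ℤ} (h : ∀ m, (a : ZMod (T.W m)) = b) : a = b := by
  obtain ⟨m, -, hm⟩ := T.exists_W_gt (a - b).natAbs 0
  have h2 : ((T.W m : ℕ) : ℤ) ∣ (a - b) := by
    rw [← ZMod.intCast_zmod_eq_zero_iff_dvd, Int.cast_sub, h m, sub_self]
  by_contra hab
  have := Nat.le_of_dvd (Int.natAbs_pos.2 (sub_ne_zero.2 hab)) (Int.natCast_dvd.1 h2)
  omega

theorem eq_zero_of_sh_eq (T : Tower S) {v : Lat} {x : X} (h : S.sh v x = x) : v = 0 := by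
  have key : ∀ ax, vAcross ax v = 0 := fun ax => T.int_eq_of_forall fun m => by
    have e := T.across_sh ax m v x
    rw [h] at e
    simpa using e
  exact Prod.ext (key true) (key false)

theorem sh_inj (T : Tower S) {u v : Lat} {x : X} (h : S.sh u x = S.sh v x) : u = v := by
  have h2 : S.sh (-v + u) x = x := by rw [S.sh_add, h, S.sh_neg_cancel]
  have := T.eq_zero_of_sh_eq h2
  exact (neg_add_eq_zero.1 this).symm

theorem mem_fault_translate_iff (ax : Bool) (k : ℤ) (x : X) :
    S.sh (axisVec ax 0 (-k)) x ∈ T.fault ax ↔ ∀ m, T.across ax m x = (k : ZMod (T.W m)) := by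
  simp only [fault, Set.mem_ofPred_eq, across_sh, vAcross_axisVec, Int.cast_neg,
    add_neg_eq_zero]

theorem mem_band_iff (ax : Bool) (K : ℕ) (z : Pt X n) :
    z ∈ T.band ax K ↔ ∃ k : ℤ, k.natAbs ≤ K ∧ ∀ m, T.across ax m z.1 = (k : ZMod (T.W m)) := by
  simp only [band, Set.mem_ofPred_eq, mem_fault_translate_iff]

theorem height_unique {ax : Bool} {x : X} {k l : ℤ}
    (hk : ∀ m, T.across ax m x = (k : ZMod (T.W m)))
    (hl : ∀ m, T.across ax m x = (l : ZMod (T.W m))) : k = l :=
  T.int_eq_of_forall fun m => (hk m).symm.trans (hl m)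

theorem band_mono (ax : Bool) {K L : ℕ} (h : K ≤ L) :
    (T.band ax K : Set (Pt X n)) ⊆ T.band ax L :=
  fun _ ⟨k, hk, hz⟩ => ⟨k, hk.trans h, hz⟩

end Tower

/-! ### Local permutations -/

namespace Sys

variable {S : Sys X}

theorem IsLocal.continuous {g : Equiv.Perm (Pt X n)} (hg : S.IsLocal g) : Continuous g := by
  obtain ⟨d, hd, hc, hgd⟩ := hg
  refine continuous_iff_continuousAt.2 fun z => ?_
  have : ContinuousAt (fun w : Pt X n => (S.sh (d z) w.1, (g z).2)) z :=
    (((S.sh (d z)).continuous.comp continuous_fst).prodMk continuous_const).continuousAt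
  refine this.congr ?_
  filter_upwards [hd.eventually_eq z, hc.eventually_eq z] with w h1 h2
  exact Prod.ext (by rw [hgd, h1]) h2.symm

theorem IsLocal.one : S.IsLocal (1 : Equiv.Perm (Pt X n)) := by
  refine ⟨fun _ => 0, IsLocallyConstant.const _, ?_, fun z => by simp [S.sh_zero]⟩
  exact IsLocallyConstant.iff_continuous _ |>.2 continuous_snd

theorem IsLocal.mul {g h : Equiv.Perm (Pt X n)} (hg : S.IsLocal g) (hh : S.IsLocal h) :
    S.IsLocal (g * h) := by
  have hcont := hh.continuous
  obtain ⟨d, hd, hc, hgd⟩ := hg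
  obtain ⟨e, he, -, hhe⟩ := hh
  refine ⟨fun z => d (h z) + e z, ?_, hc.comp_continuous hcont, fun z => ?_⟩
  · exact (hd.comp_continuous hcont).comp₂ he (· + ·)
  · show (g (h z)).1 = _
    rw [hgd, hhe, S.sh_add]

theorem isLocal_gen (g : Gen X n) : S.IsLocal (g.perm S) := by
  classical
  set E : Off n → Set (Pt X n) := fun p => {z | z.2 = p.2 ∧ S.sh (-p.1) z.1 ∈ g.U} with hE
  have hEc : ∀ p, IsClopen (E p) := fun p =>
    ((isClopen_discrete ({p.2} : Set (Fin n))).preimage continuous_snd).inter
      (g.U.isClopen.preimage ((S.sh (-p.1)).continuous.comp continuous_fst))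
  have hid : IsLocallyConstant (fun z : Pt X n => z.2) :=
    IsLocallyConstant.iff_continuous _ |>.2 continuous_snd
  let d : Pt X n → Lat := fun z => if z ∈ E g.p then g.q.1 - g.p.1 else
    if z ∈ E g.q then g.r.1 - g.q.1 else if z ∈ E g.r then g.p.1 - g.r.1 else 0
  refine ⟨d, ?_, ?_, fun z => ?_⟩
  · exact isLocallyConstant_ite (hEc _) (IsLocallyConstant.const _)
      (isLocallyConstant_ite (hEc _) (IsLocallyConstant.const _)
        (isLocallyConstant_ite (hEc _) (IsLocallyConstant.const _) (IsLocallyConstant.const _)))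
  · have : (fun z => (g.perm S z).2) = fun z => if z ∈ E g.p then g.q.2 else
        if z ∈ E g.q then g.r.2 else if z ∈ E g.r then g.p.2 else z.2 := by
      funext z
      show (S.cycFun g.U g.p g.q g.r z).2 = _
      simp only [Sys.cycFun, hE, Set.mem_ofPred_eq, SetLike.mem_coe]
      split_ifs <;> rfl
    rw [this]
    exact isLocallyConstant_ite (hEc _) (IsLocallyConstant.const _)
      (isLocallyConstant_ite (hEc _) (IsLocallyConstant.const _)
        (isLocallyConstant_ite (hEc _) (IsLocallyConstant.const _) hid))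
  · show (S.cycFun g.U g.p g.q g.r z).1 = S.sh (d z) z.1
    simp only [d, Sys.cycFun, hE, Set.mem_ofPred_eq, SetLike.mem_coe]
    split_ifs <;> simp [S.sh_zero]

theorem perm_flip (g : Gen X n) : g.flip.perm S = (g.perm S)⁻¹ := by
  refine eq_inv_of_mul_eq_one_left (Equiv.ext fun z => ?_)
  exact S.cycFun_cancel g.U g.tri z

/-- Every element of the alternating group is local. -/
theorem isLocal_of_mem {g : Equiv.Perm (Pt X n)} (hg : g ∈ S.altGroup n) : S.IsLocal g := by
  rw [S.altGroup_eq] at hg
  induction hg using Subgroup.closure_induction'' with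
  | one => exact IsLocal.one
  | mem x hx =>
    obtain ⟨a, rfl⟩ := hx
    exact isLocal_gen a
  | inv_mem x hx =>
    obtain ⟨a, rfl⟩ := hx
    rw [← perm_flip]
    exact isLocal_gen _
  | mul x y _ _ hx hy => exact hx.mul hy

end Sys

end Vale.Agent.P196.Full
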