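import Vale.Agent.P196.Full.Amenable.Lamps

/-!
# P196: stabilisers of deformed cuts are locally finite

A finite set of local permutations fixing a deformed cut preserves, for a large level, deformed
strips between consecutive rows; fixing one cut in each direction it preserves bounded boxes and
generates a finite group.
-/

open Filter Topology

namespace Vale.Agent.P196.Full

variable {X : Type} [TopologicalSpace X] {n : ℕ}

/-- Permutations of a bounded displacement which preserve a base point form finite groups. -/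
theorem finite_closure_of_base [CompactSpace X] {S : Sys X} (T : Tower S)
    (K : Finset (Equiv.Perm (Pt X n))) (hloc : ∀ g ∈ K, S.IsLocal g)
    (L : Pt X n → Lat) (hL : IsLocallyConstant L)
    (hbase : ∀ g ∈ K, ∀ z, S.sh (L (g z)) (g z).1 = S.sh (L z) z.1) :
    (Subgroup.closure (K : Set (Equiv.Perm (Pt X n))) : Set (Equiv.Perm (Pt X n))).Finite := by
  classical
  choose d hd hc hgd using fun g : K => hloc g.1 g.2
  have hinvc : ∀ g : K, Continuous (g.1 : Equiv.Perm (Pt X n)) := fun g => (hloc g.1 g.2).continuous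
  -- the possible offsets
  set V : Finset Lat := (hL.range_finite.toFinset ×ˢ hL.range_finite.toFinset).image
    (fun p => p.1 - p.2) with hV
  have hVmem : ∀ z w v, S.sh (L w) w.1 = S.sh (L z) z.1 → w.1 = S.sh v z.1 → v ∈ V := by
    intro z w v h hw
    rw [hw, ← S.sh_add] at h
    refine Finset.mem_image.2 ⟨(L z, L w), by simp, ?_⟩
    rw [← T.sh_inj h]
    exact add_sub_cancel_left _ _
  -- the finite information
  let π : Pt X n → (Lat × Fin n) × (V → Fin n → K → Lat × Fin n) := fun z =>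
    ((0, z.2), fun v c g => (d g (S.sh v z.1, c), (g.1 (S.sh v z.1, c)).2))
  have hπ : IsLocallyConstant π := by
    have hid : IsLocallyConstant (fun z : Pt X n => z.2) :=
      IsLocallyConstant.iff_continuous _ |>.2 continuous_snd
    have h1 : ∀ (v : V) (c : Fin n) (g : K), IsLocallyConstant
        (fun z : Pt X n => (d g (S.sh v z.1, c), (g.1 (S.sh v z.1, c)).2)) := fun v c g => by
      have hcts : Continuous (fun z : Pt X n => ((S.sh v z.1, c) : Pt X n)) :=
        ((S.sh v).continuous.comp continuous_fst).prodMk continuous_const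
      exact ((hd g).prodMk (hc g)).comp_continuous hcts
    rw [IsLocallyConstant.iff_eventually_eq]
    intro z
    have h2 : ∀ᶠ w in 𝓝 z, ∀ (v : V) (c : Fin n) (g : K),
        (d g (S.sh v w.1, c), (g.1 (S.sh v w.1, c)).2) =
          (d g (S.sh v z.1, c), (g.1 (S.sh v z.1, c)).2) := by
      simp only [eventually_all]
      exact fun v c g => (h1 v c g).eventually_eq z
    filter_upwards [h2, hid.eventually_eq z] with w hw hw2
    exact Prod.ext (by simp [π, hw2]) (funext fun v => funext fun c => funext fun g => hw v c g)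
  have hfinA : Finite (Set.range π) := hπ.range_finite.to_subtype
  -- the permutations described by a finite table
  let Good : Set (Equiv.Perm (Pt X n)) :=
    {h | (∀ z, S.sh (L (h z)) (h z).1 = S.sh (L z) z.1) ∧
      ∃ F : Set.range π → V × Fin n, ∀ z, h z =
        (S.sh ((F ⟨π z, z, rfl⟩).1 : Lat) z.1, (F ⟨π z, z, rfl⟩).2)}
  have hGood : Good.Finite := by
    let Φ : Good → (Set.range π → V × Fin n) := fun h => h.2.2.choose
    refine Set.finite_coe_iff.1 (Finite.of_injective Φ fun h h' hh => Subtype.ext (Equiv.ext ?_))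
    intro z
    rw [h.2.2.choose_spec z, h'.2.2.choose_spec z]
    exact congrArg
      (fun F : Set.range π → V × Fin n =>
        ((S.sh ((F ⟨π z, z, rfl⟩).1 : Lat) z.1, (F ⟨π z, z, rfl⟩).2) : Pt X n)) hh
  have hone : (1 : Equiv.Perm (Pt X n)) ∈ Good := by
    refine ⟨fun z => rfl, fun a => ?_, fun z => ?_⟩
    · have h0 : (0 : Lat) ∈ V := by
        obtain ⟨_, z, rfl⟩ := a
        exact hVmem z z 0 rfl (S.sh_zero _).symm
      exact (⟨0, h0⟩, a.1.1.2)
    · simp [π, S.sh_zero]
  have hstep : ∀ x ∈ K, ∀ h ∈ Good, x * h ∈ Good := by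
    rintro x hx h ⟨hb, F, hF⟩
    have hbx : ∀ z, S.sh (L (x (h z))) (x (h z)).1 = S.sh (L z) z.1 := fun z =>
      (hbase x hx (h z)).trans (hb z)
    refine ⟨hbx, fun a => ?_, fun z => ?_⟩
    · let e : Lat × Fin n := a.1.2 (F a).1 (F a).2 ⟨x, hx⟩
      refine (⟨e.1 + (F a).1, ?_⟩, e.2)
      obtain ⟨_, z, rfl⟩ := a
      refine hVmem z (x (h z)) _ (hbx z) ?_
      have h1 := hgd ⟨x, hx⟩ (h z)
      simp only [hF z] at h1 ⊢
      rw [h1, ← S.sh_add]
    · show x (h z) = _
      have h1 := hgd ⟨x, hx⟩ (h z)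
      simp only [hF z] at h1 ⊢
      exact Prod.ext (by rw [h1, ← S.sh_add]) rfl
  -- finiteness of the monoid gives that of the group
  have hsub : (Submonoid.closure (K : Set (Equiv.Perm (Pt X n))) : Set _) ⊆ Good := by
    intro y hy
    induction hy using Submonoid.closure_induction_left with
    | one => exact hone
    | mul_left x hx y _ ih => exact hstep x hx y ih
  have hfin : ∀ x ∈ (K : Set (Equiv.Perm (Pt X n))), IsOfFinOrder x := by
    intro x hx
    by_contra h
    exact Set.infinite_range_of_injective (injective_pow_iff_not_isOfFinOrder.2 h) <|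
      hGood.subset <| Set.range_subset_iff.2 fun k =>
        hsub (pow_mem (Submonoid.subset_closure hx) k)
  refine hGood.subset ?_
  intro y hy
  rw [SetLike.mem_coe, ← Subgroup.mem_toSubmonoid,
    Subgroup.closure_toSubmonoid_of_isOfFinOrder hfin] at hy
  exact hsub hy

namespace Tower

variable {S : Sys X} (T : Tower S)

theorem wrap_cases {W : ℕ} {t t' δ : ℤ} (hW : 0 < W) (h1 : t ∈ Set.Ioc (-(W : ℤ)) W)
    (h2 : t' * 2 ∈ Set.Ioc (-(W : ℤ)) W) (h1' : t * 2 ∈ Set.Ioc (-(W : ℤ)) W)
    (hδ : 2 * δ.natAbs < W) (h : (W : ℤ) ∣ t' - (t + δ)) :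
    t' = t + δ ∨ t' = t + δ + W ∨ t' = t + δ - W := by
  obtain ⟨q, hq⟩ := h
  simp only [Set.mem_Ioc] at h1 h2 h1'
  have hq1 : -2 < q := by
    by_contra hc
    have : (W : ℤ) * q ≤ W * (-2) := by
      refine mul_le_mul_of_nonneg_left ?_ (by omega)
      omega
    omega
  have hq2 : q < 2 := by
    by_contra hc
    have : (W : ℤ) * 2 ≤ W * q := by
      refine mul_le_mul_of_nonneg_left ?_ (by omega)
      omega
    omega
  obtain rfl | rfl | rfl : q = -1 ∨ q = 0 ∨ q = 1 := by omega
  all_goals omega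

/-- Deformed strips: a finite set of permutations fixing a deformed cut fixes the base row of the
deformed strip of a large level. -/
theorem exists_strip [CompactSpace X] [T2Space X] (ax : Bool) (Y : T.Cut n ax)
    (K : Finset (Equiv.Perm (Pt X n))) (hK : ∀ g ∈ K, g ∈ S.altGroup n)
    (hfix : ∀ g ∈ K, g '' Y.1 = Y.1) :
    ∃ ℓ : Pt X n → ℤ, IsLocallyConstant ℓ ∧
      ∀ g ∈ K, ∀ z v, (g z).1 = S.sh v z.1 → ℓ (g z) + vAcross ax v = ℓ z := by
  classical
  obtain ⟨K₀, B, hB, hA⟩ := Y.2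
  choose d hd hc hgd using fun g : K => Sys.isLocal_of_mem (hK g.1 g.2)
  have hbd : ∀ g : K, ∃ R : ℕ, ∀ z, (vAcross ax (d g z)).natAbs ≤ R := fun g => by
    obtain ⟨R, hR⟩ := natAbs_le_of_mem_finset (((hd g).comp (vAcross ax)).range_finite).toFinset
    exact ⟨R, fun z => hR _ (by simp)⟩
  choose Rg hRg using hbd
  set R := Finset.univ.sup Rg with hR
  have hδR : ∀ g z, (vAcross ax (d g z)).natAbs ≤ R := fun g z =>
    (hRg g z).trans (Finset.le_sup (Finset.mem_univ g))
  -- membership in the cut at a given height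
  let u : ℤ → Pt X n → Bool := fun t z => decide (0 ≤ t) ^^ decide (t.natAbs ≤ K₀ ∧ z ∈ B)
  have hu : ∀ (t : ℤ) z, (∀ m, T.across ax m z.1 = (t : ZMod (T.W m))) →
      (u t z = true ↔ z ∈ Y.1) := by
    intro t z hz
    have hup : z ∈ T.upper ax ↔ 0 ≤ t :=
      ⟨fun ⟨l, hl, hlz⟩ => T.height_unique hlz hz ▸ hl, fun h => ⟨t, h, hz⟩⟩
    have hband : z ∈ T.band ax K₀ ↔ t.natAbs ≤ K₀ := by
      rw [T.mem_band_iff]
      exact ⟨fun ⟨l, hl, hlz⟩ => T.height_unique hlz hz ▸ hl, fun h => ⟨t, h, hz⟩⟩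
    have := Set.ext_iff.1 hA z
    rw [Set.mem_symmDiff, Set.mem_inter_iff, hup, hband] at this
    have hBz : z ∈ B ∧ t.natAbs ≤ K₀ ↔ t.natAbs ≤ K₀ ∧ z ∈ B := and_comm
    rw [hBz] at this
    simp only [u]
    by_cases h0 : 0 ≤ t <;> by_cases hA' : t.natAbs ≤ K₀ ∧ z ∈ B <;>
      by_cases hY : z ∈ Y.1 <;> simp only [h0, hA', hY, decide_true, decide_false] at this ⊢ <;>
      first | decide | simp at this
  have hu_lc : ∀ t, IsLocallyConstant (u t) := by
    intro t
    have hBd : IsLocallyConstant (fun z => decide (z ∈ B)) := by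
      simpa using isLocallyConstant_ite hB (IsLocallyConstant.const true)
        (IsLocallyConstant.const false)
    simpa [u, Function.comp_def] using hBd.comp (fun b => decide (0 ≤ t) ^^ (decide (t.natAbs ≤ K₀) && b))
  -- far rows look like the fault
  set Kt := K₀ + R with hKt
  have hgood : ∀ (g : K) (t : ℤ), ∃ m, ∀ z : Pt X n, T.across ax m z.1 = (t : ZMod (T.W m)) →
      u t z = u (t + vAcross ax (d g z)) (g.1 z) := by
    intro g t
    by_contra hno
    push Not at hno
    let D : ℕ → Set (Pt X n) := fun m => {z | T.across ax m z.1 = (t : ZMod (T.W m))} ∩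
      {z | u t z ≠ u (t + vAcross ax (d g z)) (g.1 z)}
    have hclosed : ∀ m, IsClosed (D m) := fun m => by
      refine IsClosed.inter ?_ ?_
      · exact ((T.isLocallyConstant_across ax m).comp_continuous continuous_fst).isClosed_fiber _
      · have hgc : Continuous (g.1 : Equiv.Perm (Pt X n)) :=
          (Sys.isLocal_of_mem (hK g.1 g.2)).continuous
        have h2 : IsLocallyConstant (fun z => u (t + vAcross ax (d g z)) (g.1 z)) := by
          rw [IsLocallyConstant.iff_eventually_eq]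
          intro z
          filter_upwards [(hd g).eventually_eq z,
            ((hu_lc (t + vAcross ax (d g z))).comp_continuous hgc).eventually_eq z] with w hw hw'
          simp only [Function.comp_apply] at hw'
          rw [hw, hw']
        exact ⟨(((hu_lc t).prodMk h2) {p : Bool × Bool | p.1 ≠ p.2}ᶜ : _)⟩
    obtain ⟨z, hz⟩ := IsCompact.nonempty_iInter_of_sequence_nonempty_isCompact_isClosed D
      (fun m z hz => ⟨T.across_eq_of_le m.le_succ hz.1, hz.2⟩)
      (fun m => by
        obtain ⟨z, h1, h2⟩ := hno m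
        exact ⟨z, h1, h2⟩) (hclosed 0).isCompact hclosed
    rw [Set.mem_iInter] at hz
    have hht : ∀ m, T.across ax m z.1 = (t : ZMod (T.W m)) := fun m => (hz m).1
    have hgz : ∀ m, T.across ax m (g.1 z).1 = ((t + vAcross ax (d g z) : ℤ) : ZMod (T.W m)) :=
      fun m => by rw [hgd g z, T.across_sh, hht, Int.cast_add]
    refine (hz 0).2 (Bool.eq_iff_iff.2 ?_)
    rw [hu t z hht, hu _ _ hgz]
    conv_rhs => rw [← hfix g.1 g.2]
    exact g.1.injective.mem_set_image.symm
  choose mg hmg using hgood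
  obtain ⟨M, hM0, hMW⟩ := T.exists_W_gt (4 * (Kt + R + 1))
    ((Finset.univ ×ˢ Finset.Icc (-(Kt : ℤ)) Kt).sup fun p => mg p.1 p.2)
  have : NeZero (T.W M) := ⟨(T.W_pos M).ne'⟩
  let τ : Pt X n → ℤ := T.near ax M
  let ℓ : Pt X n → ℤ := fun z => -τ z - if u (τ z) z then 0 else (T.W M : ℤ)
  refine ⟨ℓ, ?_, fun g hg z v hv => ?_⟩
  · rw [IsLocallyConstant.iff_eventually_eq]
    intro z
    filter_upwards [(T.isLocallyConstant_near ax M).eventually_eq z,
      (hu_lc (τ z)).eventually_eq z] with w hw hw'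
    have hτw : τ w = τ z := hw
    show -τ w - (if u (τ w) w then 0 else (T.W M : ℤ)) =
      -τ z - (if u (τ z) z then 0 else (T.W M : ℤ))
    rw [hτw, hw']
  have hv' : v = d ⟨g, hg⟩ z := T.sh_inj (hv ▸ hgd ⟨g, hg⟩ z)
  set δ := vAcross ax v with hδ
  have hδb : δ.natAbs ≤ R := by rw [hδ, hv']; exact hδR ⟨g, hg⟩ z
  have hcast : T.across ax M z.1 = (τ z : ZMod (T.W M)) := (ZMod.coe_valMinAbs _).symm
  have hτ' : ((T.W M : ℕ) : ℤ) ∣ τ (g z) - (τ z + δ) := by
    rw [← ZMod.intCast_zmod_eq_zero_iff_dvd, Int.cast_sub, Int.cast_add, sub_eq_zero, ← hcast]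
    show ((T.across ax M (g z).1).valMinAbs : ZMod (T.W M)) = _
    rw [ZMod.coe_valMinAbs, hv, T.across_sh]
  have hI1 := ZMod.valMinAbs_mem_Ioc (T.across ax M z.1)
  have hI2 := ZMod.valMinAbs_mem_Ioc (T.across ax M (g z).1)
  change τ z * 2 ∈ _ at hI1
  change τ (g z) * 2 ∈ _ at hI2
  have hcases := wrap_cases (T.W_pos M) (by simp only [Set.mem_Ioc] at hI1 ⊢; omega) hI2 hI1
    (δ := δ) (by omega) hτ'
  simp only [Set.mem_Ioc] at hI1 hI2
  show -τ (g z) - (if u (τ (g z)) (g z) then 0 else (T.W M : ℤ)) + δ =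
    -τ z - if u (τ z) z then 0 else (T.W M : ℤ)
  by_cases hsmall : (τ z).natAbs ≤ Kt
  · have hτg : τ (g z) = τ z + δ := by omega
    have heq := hmg ⟨g, hg⟩ (τ z) z (T.across_eq_of_le
      ((Finset.le_sup (f := fun p => mg p.1 p.2) (b := (⟨g, hg⟩, τ z))
        (by simp only [Finset.mem_product, Finset.mem_univ, Finset.mem_Icc, true_and]; omega)).trans
          hM0) hcast)
    rw [← hv', ← hδ] at heq
    rw [hτg, heq]
    ring
  · have hu1 : u (τ z) z = decide (0 ≤ τ z) := by
      simp [u, show ¬ (τ z).natAbs ≤ K₀ by omega]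
    have hu2 : u (τ (g z)) (g z) = decide (0 ≤ τ (g z)) := by
      simp [u, show ¬ (τ (g z)).natAbs ≤ K₀ by omega]
    rw [hu1, hu2]
    by_cases h0 : 0 ≤ τ z <;> by_cases h0' : 0 ≤ τ (g z) <;> simp [h0, h0'] <;> omega

/-- A finite set of permutations fixing a deformed cut in each direction generates a finite
group. -/
theorem finite_closure_of_fix [CompactSpace X] [T2Space X] (Y₀ : T.Cut n false)
    (Y₁ : T.Cut n true) (K : Finset (Equiv.Perm (Pt X n))) (hK : ∀ g ∈ K, g ∈ S.altGroup n)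
    (h₀ : ∀ g ∈ K, g '' Y₀.1 = Y₀.1) (h₁ : ∀ g ∈ K, g '' Y₁.1 = Y₁.1) :
    (Subgroup.closure (K : Set (Equiv.Perm (Pt X n))) : Set (Equiv.Perm (Pt X n))).Finite := by
  obtain ⟨l₀, hl₀, hi₀⟩ := T.exists_strip false Y₀ K hK h₀
  obtain ⟨l₁, hl₁, hi₁⟩ := T.exists_strip true Y₁ K hK h₁
  refine finite_closure_of_base T K (fun g hg => Sys.isLocal_of_mem (hK g hg))
    (fun z => (l₁ z, l₀ z)) (hl₁.prodMk hl₀) fun g hg z => ?_
  obtain ⟨d, -, -, hgd⟩ := Sys.isLocal_of_mem (hK g hg)
  rw [hgd z, ← S.sh_add]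
  congr 1
  have e0 := hi₀ g hg z (d z) (hgd z)
  have e1 := hi₁ g hg z (d z) (hgd z)
  exact congrArg (fun v => S.sh v) (Prod.ext e1 e0)

end Tower

end Vale.Agent.P196.Full
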